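import Vale.Agent.P269.G1I.All
import Vale.Agent.P269.G2I.BSpec1
import Vale.Agent.P269.G2I.T.H980_GString
import Vale.Agent.P269.G2I.T.H984_SBEuler

/-!
# [DB4b] `C_(U g_1) = U`
-/

namespace Vale.Agent.P269.G2.H780.H513

open Vale.Agent.P269.CI

variable {X : CompleteIntersection} {n : ℕ} (E : Fam X n) {F : ℕ → ℕ → List (Ins X) → ℂ}

theorem cb_add (a b : ℂ) : cb n (a + b) = cb n a + cb n b := by
  simp only [cb, map_add]

theorem cb_rat (q : ℚ) : cb n ((q : ℚ) : ℂ) = algebraMap ℚ (RB n) q := by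
  have h : ((MvPowerSeries.C (σ := Fin n)).comp (PowerSeries.C (R := ℂ))).comp
      (algebraMap ℚ ℂ) = algebraMap ℚ (RB n) := Subsingleton.elim _ _
  exact RingHom.congr_fun h q

theorem muc_eq (c : ℂ) : muc X n c = cb n c • (1 : OB X n) + muB X n := by
  refine Matrix.ext fun a b => ?_
  change Matrix.diagonal (fun b => cb n (c + mu X b)) a b =
    cb n c * (1 : Matrix _ _ (RB n)) a b + Matrix.diagonal (fun b => cb n (mu X b)) a b
  by_cases h : a = b
  · subst h
    rw [Matrix.diagonal_apply_eq, Matrix.diagonal_apply_eq, Matrix.one_apply_eq, cb_add, mul_one]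
  · rw [Matrix.diagonal_apply_ne _ h, Matrix.diagonal_apply_ne _ h, Matrix.one_apply_ne h,
      mul_zero, add_zero]

theorem mul_muc (a : OB X n) (c : ℂ) : a * muc X n c = cb n c • a + a * muB X n := by
  rw [muc_eq, mul_add, mul_smul_comm, mul_one]

theorem muc_mul (a : OB X n) (c : ℂ) : muc X n c * a = cb n c • a + muB X n * a := by
  rw [muc_eq, add_mul, smul_mul_assoc, one_mul]

theorem rat_smul (q : ℚ) (a : OB X n) : q • a = cb n ((q : ℚ) : ℂ) • a := by
  rw [cb_rat, algebraMap_smul]

theorem SB_zero : SB E F 0 = 1 := rfl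

/-- `C_ℰ = U` -/
theorem CB_calE (hF : IsGW X F) (he : Even X.dim) : CB E F (calE E F) = UB E F := by
  have h := SB_euler E hF he 0
  rw [SB_zero, mul_one, one_mul, Nat.cast_zero, zero_add, one_smul] at h
  rw [h, UB]

/-- `U S_k` -/
theorem UB_mul_SB (hF : IsGW X F) (he : Even X.dim) (k : ℕ) :
    UB E F * SB E F k = ((k : ℚ) + 1) • SB E F (k + 1) + SB E F (k + 1) * muB X n -
      muB X n * SB E F (k + 1) + SB E F k * RBcl X n := by
  rw [← SB_euler E hF he k, CB_calE E hF he]

/-- `S_(k+1) (k + 3/2 + μ) + S_k R = (1/2 + μ) S_(k+1) + U S_k` -/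
theorem SB_muc (hF : IsGW X F) (he : Even X.dim) (k : ℕ) :
    SB E F (k + 1) * muc X n (((k + 1 : ℕ) : ℂ) + 1 / 2) + SB E F k * RBcl X n =
      muc X n (1 / 2) * SB E F (k + 1) + UB E F * SB E F k := by
  rw [mul_muc, muc_mul, UB_mul_SB E hF he k, rat_smul, cb_add, add_smul]
  have hc : cb n ((((k : ℚ) + 1 : ℚ)) : ℂ) = cb n (((k + 1 : ℕ)) : ℂ) := by
    congr 1
    push_cast
    ring
  rw [hc]
  abel

theorem act_eB (a : OB X n) (b c : Ix X) : actB X n a (eB X n b) c = a c b := by
  change Matrix.toLin' a (Pi.single b 1) c = _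
  rw [Matrix.toLin'_apply, Matrix.mulVec_single_one]
  rfl

/-- `ℰ = (1/2 + μ) g_0 + U g_1` -/
theorem calE_eq (hF : IsGW X F) (he : Even X.dim) :
    calE E F = actB X n (muc X n (1 / 2)) (gB E F 0) + actB X n (UB E F) (gB E F 1) := by
  have hg0 : gB E F 0 = actB X n (SB E F 1) (eB X n (one X)) -
      ∑ i, (MvPowerSeries.X i : RB n) • actB X n (SB E F (E.e i).2) (eB X n (E.e i).1) := by
    funext c
    rw [Pi.sub_apply, act_eB, Finset.sum_apply]
    simp only [gB, wB, Nat.sub_zero, zero_le, if_true, Pi.smul_apply, act_eB, smul_eq_mul]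
  have hg1 : gB E F 1 = eB X n (one X) -
      ∑ i, (MvPowerSeries.X i : RB n) • (if (E.e i).2 = 0 then 0 else
        actB X n (SB E F ((E.e i).2 - 1)) (eB X n (E.e i).1)) := by
    funext c
    rw [Pi.sub_apply, Finset.sum_apply]
    simp only [gB, wB, Nat.sub_self, le_refl, if_true, Pi.smul_apply, smul_eq_mul]
    congr 1
    · rw [SB_zero]
      change (1 : Matrix (Ix X) (Ix X) (RB n)) c (one X) =
        (Pi.single (one X) (1 : RB n) : Ix X → RB n) c
      rw [Matrix.one_apply, Pi.single_apply]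
    · refine Finset.sum_congr rfl fun i _ => ?_
      congr 1
      by_cases h : (E.e i).2 = 0
      · rw [if_neg (by omega), if_pos h]
        rfl
      · rw [if_pos (by omega), if_neg h, act_eB]
  have h1' : SB E F 1 * muc X n (3 / 2) + RBcl X n =
      muc X n (1 / 2) * SB E F 1 + UB E F := by
    have h := SB_muc E hF he 0
    rw [SB_zero, one_mul, mul_one, zero_add] at h
    rw [← h]
    congr 3
    norm_num
  rw [calE, hg0, hg1, h1']
  simp only [map_sub, map_add, map_sum, map_mul, Module.End.mul_apply, LinearMap.add_apply,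
    map_smul]
  rw [sub_add_sub_comm, ← Finset.sum_add_distrib]
  congr 1
  refine Finset.sum_congr rfl fun i _ => ?_
  rw [← smul_add]
  congr 1
  by_cases h : (E.e i).2 = 0
  · rw [if_pos h, if_pos h, h, SB_zero, map_zero, add_zero, add_zero, Nat.cast_zero, zero_add,
      map_one, Module.End.one_apply]
    rfl
  · rw [if_neg h, if_neg h]
    obtain ⟨m, hm⟩ := Nat.exists_eq_succ_of_ne_zero h
    rw [hm, Nat.succ_eq_add_one, Nat.add_sub_cancel]
    have h := congrArg (fun a => actB X n a (eB X n (E.e i).1)) (SB_muc E hF he m)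
    simp only [map_add, map_mul, Module.End.mul_apply, LinearMap.add_apply] at h
    exact h

/-- **[DB4b]** -/
theorem CB_U (hF : IsGW X F) (he : Even X.dim) :
    CB E F (actB X n (UB E F) (gB E F 1)) = UB E F := by
  have h := calE_eq E hF he
  rw [g_zero E hF he, map_zero, zero_add] at h
  rw [← h, CB_calE E hF he]

end Vale.Agent.P269.G2.H780.H513
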