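import Vale.Agent.P269.G1I.All
import Vale.Agent.P269.G2I.BSpec1
import Vale.Agent.P269.G2I.Model1

/-!
# [ZB0] functions of `μ` and the classical multiplication by `c_1`
-/

namespace Vale.Agent.P269.G2.H780.ZB

open Finset.HasAntidiagonal (antidiagonal)
open Vale.Agent.P269.CI
open Vale.Agent.P269.G1 (kk)

variable {X : CompleteIntersection} {n : ℕ}

theorem esym_zero_zero (x : ℂ) : esym 0 0 x = 1 := by
  simp [esym]

theorem esym_zero_succ (i : ℕ) (x : ℂ) : esym 0 (i + 1) x = 0 := by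
  unfold esym
  rw [Finset.prod_range_zero, Polynomial.coeff_one, if_neg (by omega)]

theorem esym_succ_zero (K : ℕ) (x : ℂ) : esym (K + 1) 0 x = (x + K) * esym K 0 x := by
  unfold esym
  rw [Finset.prod_range_succ, mul_comm, add_mul, Polynomial.coeff_add, Polynomial.coeff_C_mul,
    Polynomial.coeff_X_mul_zero, zero_add]

theorem esym_succ_succ (K i : ℕ) (x : ℂ) :
    esym (K + 1) (i + 1) x = esym K i x + (x + K) * esym K (i + 1) x := by
  unfold esym
  rw [Finset.prod_range_succ, mul_comm, add_mul, Polynomial.coeff_add, Polynomial.coeff_C_mul,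
    Polynomial.coeff_X_mul]

/-- constants as a ring homomorphism -/
noncomputable def cbHom (n : ℕ) : ℂ →+* RB n :=
  (MvPowerSeries.C (σ := Fin n) (R := PowerSeries ℂ)).comp (PowerSeries.C (R := ℂ))

theorem cb_eq (c : ℂ) : cb n c = cbHom n c := rfl

theorem cb_add (a b : ℂ) : cb n (a + b) = cb n a + cb n b := by
  simp only [cb_eq, map_add]

theorem cb_mul (a b : ℂ) : cb n (a * b) = cb n a * cb n b := by
  simp only [cb_eq, map_mul]

theorem cb_one : cb n 1 = 1 := by
  rw [cb_eq, map_one]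

theorem cb_zero : cb n 0 = 0 := by
  rw [cb_eq, map_zero]

theorem cb_rat (q : ℚ) : cb n (q : ℂ) = algebraMap ℚ (RB n) q := by
  have h : (cbHom n).comp (algebraMap ℚ ℂ) = algebraMap ℚ (RB n) := RingHom.ext_rat _ _
  have h2 := RingHom.congr_fun h q
  rw [← h2]
  rfl

theorem fmu_one : fmu X n (fun _ => 1) = 1 := by
  unfold fmu
  simp only [cb_one]
  exact Matrix.diagonal_one

theorem fmu_zero : fmu X n (fun _ => 0) = 0 := by
  unfold fmu
  simp only [cb_zero]
  exact Matrix.diagonal_zero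

theorem fmu_add (f g : ℂ → ℂ) : fmu X n (fun x => f x + g x) = fmu X n f + fmu X n g := by
  unfold fmu
  rw [Matrix.diagonal_add]
  congr 1
  funext b
  exact cb_add _ _

theorem fmu_mul (f g : ℂ → ℂ) : fmu X n (fun x => f x * g x) = fmu X n f * fmu X n g := by
  unfold fmu
  rw [Matrix.diagonal_mul_diagonal]
  congr 1
  funext b
  exact cb_mul _ _

theorem muB_eq : muB X n = fmu X n (fun x => x) := rfl

theorem kk_eq (q : ℚ) : (kk (RB n) q : OB X n) = fmu X n (fun _ => (q : ℂ)) := by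
  unfold kk fmu
  rw [Matrix.algebraMap_eq_diagonal]
  congr 1
  funext b
  rw [cb_rat]
  rfl

theorem muB_add_kk (q : ℚ) : muB X n + kk (RB n) q = fmu X n (fun x => x + (q : ℂ)) := by
  rw [muB_eq, kk_eq, ← fmu_add]

theorem c1_mu (a b : Ix X) (h : mu X b ≠ mu X a + 1) : c1 X a b = 0 := by
  unfold c1
  rcases a with i | u <;> rcases b with j | v
  · have h2 : hmul X (Sum.inl i) (Sum.inl j) = if (j : ℕ) = i + 1 then 1 else 0 := rfl
    rw [h2, if_neg, mul_zero]
    intro h3
    apply h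
    change ((j : ℕ) : ℂ) - (X.dim : ℂ) / 2 = ((i : ℕ) : ℂ) - (X.dim : ℂ) / 2 + 1
    rw [h3]
    push_cast
    ring
  · exact mul_zero _
  · exact mul_zero _
  · exact mul_zero _

/-- **[ZB0]** -/
theorem mu_Rcl (X : CompleteIntersection) (n : ℕ) :
    muB X n * RBcl X n = RBcl X n * muB X n + RBcl X n := by
  refine Matrix.ext fun c b => ?_
  rw [Matrix.add_apply, muB, Matrix.diagonal_mul, Matrix.mul_diagonal]
  change cb n (mu X c) * cb n (c1 X b c) = cb n (c1 X b c) * cb n (mu X b) + cb n (c1 X b c)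
  by_cases h : mu X c = mu X b + 1
  · rw [h, cb_add, cb_one]
    ring
  · rw [c1_mu b c h, cb_zero]
    ring

/-- **[ZB0]** -/
theorem ee_zero_zero (X : CompleteIntersection) (n : ℕ) (m : ℤ) : ee X n m 0 0 = 1 := by
  unfold ee
  rw [← fmu_one]
  congr 1
  funext x
  exact esym_zero_zero _

/-- **[ZB0]** -/
theorem ee_zero_succ (X : CompleteIntersection) (n : ℕ) (m : ℤ) (i : ℕ) :
    ee X n m 0 (i + 1) = 0 := by
  unfold ee
  rw [← fmu_zero]
  congr 1
  funext x
  exact esym_zero_succ _ _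

/-- **[ZB0]** -/
theorem ee_succ_zero (X : CompleteIntersection) (n : ℕ) (m : ℤ) (K : ℕ) : ee X n m (K + 1) 0 =
    (muB X n + kk (RB n) ((m : ℚ) + 1 / 2 + K)) * ee X n m K 0 := by
  unfold ee
  rw [muB_add_kk, ← fmu_mul]
  congr 1
  funext x
  rw [esym_succ_zero]
  push_cast
  ring

/-- **[ZB0]** -/
theorem ee_succ_succ (X : CompleteIntersection) (n : ℕ) (m : ℤ) (K i : ℕ) :
    ee X n m (K + 1) (i + 1) = ee X n m K i +
      (muB X n + kk (RB n) ((m : ℚ) + 1 / 2 + K)) * ee X n m K (i + 1) := by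
  unfold ee
  rw [muB_add_kk, ← fmu_mul, ← fmu_add]
  congr 1
  funext x
  rw [esym_succ_succ]
  push_cast
  ring

end Vale.Agent.P269.G2.H780.ZB
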