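import Vale.Agent.P269.G1I.All
import Vale.Agent.P269.G2I.BSpec1
import Vale.Agent.P269.G2I.H780.Loop1
import Vale.Agent.P269.G2I.Model1
import Vale.Agent.P269.G2I.Model2
import Vale.Agent.P269.G2I.T.H36_WEuler
import Vale.Agent.P269.G2I.T.H410_Unit
import Vale.Agent.P269.G2I.T.H780_ZB0
import Vale.Agent.P269.G2I.T.H937_Z4

/-! **[ZF]** the loop term -/

namespace Vale.Agent.P269.G2.H780.Lp

open Finset.HasAntidiagonal (antidiagonal)
open Vale.Agent.P269.CI
open Vale.Agent.P269.G1 (kk DD aK)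
open Vale.Agent.P269.H597 (coh)
open Vale.Agent.P269.G1.H660.Lp (c1_mu c1pow_mu pairing_mu pairingInv_mu c1pow_zero c1pow_succ
  c1pow_succ' pInv_c1)

variable {X : CompleteIntersection} {F : ℕ → ℕ → List (Ins X) → ℂ}

variable (hF : IsGW X F) (he : Even X.dim)

/-- the coefficient of the operators -/
noncomputable def ka (X : CompleteIntersection) (K m i : ℕ) (a : Ix X) : ℂ :=
  (-1) ^ (m + 1) * esym K i (mu X a - m - 1 / 2)

/-- sums with the coefficients of the operators -/
noncomputable def Sm (K m i j : ℕ) (f : Ix X → Ix X → RM X) : RM X :=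
  ∑ a, ∑ b, ∑ c, cs X (ka X K m i a * pairingInv X a b * c1pow X j a c) * f b c

theorem Sm_sub (K m i j : ℕ) (f g : Ix X → Ix X → RM X) :
    Sm K m i j (fun b c => f b c - g b c) = Sm K m i j f - Sm K m i j g := by
  unfold Sm
  simp only [mul_sub, Finset.sum_sub_distrib]

theorem mul_Sm (K m i j : ℕ) (r : RM X) (f : Ix X → Ix X → RM X) :
    r * Sm K m i j f = Sm K m i j (fun b c => r * f b c) := by
  unfold Sm
  simp only [Finset.mul_sum]
  refine Finset.sum_congr rfl fun a _ => Finset.sum_congr rfl fun b _ =>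
    Finset.sum_congr rfl fun c _ => ?_
  ring

/-- two-point functions -/
noncomputable def WW (F : ℕ → ℕ → List (Ins X) → ℂ) (x y : Ins X) : RM X := VB (E0 X) F x y

/-- the two lowering terms -/
noncomputable def L1 (F : ℕ → ℕ → List (Ins X) → ℂ) (n m : ℕ) (b c : Ix X) : RM X :=
  if n = 0 then 0 else ∑ d, c1 X c d • WW F (d, n - 1) (b, m)

/-- the two lowering terms -/
noncomputable def L2 (F : ℕ → ℕ → List (Ins X) → ℂ) (n m : ℕ) (b c : Ix X) : RM X :=
  if m = 0 then 0 else ∑ d, c1 X b d • WW F (c, n) (d, m - 1)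

/-- the Euler equation under the sum -/
theorem euler_sum (K m i n q : ℕ) (hq : n + m + i + 1 = q) :
    ((q : ℕ) : RM X) * Sm K m i i (fun b c => WW F (c, n) (b, m)) =
      Sm K m i i (fun b c => ∑ x, EM hF he x * sr (E0 X) (cor F 0 [(x, 0), (c, n), (b, m)])) -
        Sm K m i i (L1 F n m) - Sm K m i i (L2 F n m) := by
  rw [mul_Sm, ← Sm_sub, ← Sm_sub]
  unfold Sm
  refine Finset.sum_congr rfl fun a _ => Finset.sum_congr rfl fun b _ =>
    Finset.sum_congr rfl fun c _ => ?_
  by_cases hb : pairingInv X a b = 0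
  · rw [hb]; simp
  by_cases hc : c1pow X i a c = 0
  · rw [hc]; simp
  congr 1
  have mb := pairingInv_mu X hb
  have mc := c1pow_mu X hc
  have hW := W_euler hF he c b n m
  change ((q : ℕ) : RM X) * WW F (c, n) (b, m) =
    (∑ x, EM hF he x * sr (E0 X) (cor F 0 [(x, 0), (c, n), (b, m)])) -
      L1 F n m b c - L2 F n m b c
  rw [hW]
  have e1 : ((n + m + 1 : ℕ) : ℂ) + mu X c + mu X b = (q : ℂ) := by
    rw [← hq]
    push_cast
    linear_combination mb + mc
  have e2 : (if n = 0 ∧ m = 0 then cb (nx X) (∑ d, c1 X c d * pairing X d b) else 0) =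
      (0 : RM X) := by
    split_ifs
    · rw [Finset.sum_eq_zero, cb_eq, map_zero]
      intro d _
      by_contra h
      have md := c1_mu X (left_ne_zero_of_mul h)
      have mp := pairing_mu X (right_ne_zero_of_mul h)
      have : ((i + 1 : ℕ) : ℂ) = 0 := by
        push_cast
        linear_combination mp - md - mc - mb + 0 * mb
      exact Nat.succ_ne_zero i (by exact_mod_cast this)
    · rfl
  rw [e1, e2, smul_cs]
  unfold L1 L2 WW
  rw [map_natCast]
  ring

theorem sum_L1 (K m i n : ℕ) (hn : n ≠ 0) : Sm K m i i (L1 F n m) =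
    Sm K m i (i + 1) (fun b c => WW F (c, n - 1) (b, m)) := by
  unfold Sm L1
  refine Finset.sum_congr rfl fun a _ => Finset.sum_congr rfl fun b _ => ?_
  simp only [if_neg hn]
  calc ∑ c, cs X (ka X K m i a * pairingInv X a b * c1pow X i a c) *
        ∑ d, c1 X c d • WW F (d, n - 1) (b, m)
      = ∑ c, ∑ d, cs X (ka X K m i a * pairingInv X a b) *
          (cs X (c1pow X i a c * c1 X c d) * WW F (d, n - 1) (b, m)) := by
        refine Finset.sum_congr rfl fun c _ => ?_
        rw [Finset.mul_sum]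
        refine Finset.sum_congr rfl fun d _ => ?_
        rw [smul_cs]
        simp only [map_mul]
        ring
    _ = ∑ d, cs X (ka X K m i a * pairingInv X a b * c1pow X (i + 1) a d) *
          WW F (d, n - 1) (b, m) := by
        rw [Finset.sum_comm]
        refine Finset.sum_congr rfl fun d _ => ?_
        rw [← Finset.mul_sum, ← Finset.sum_mul, ← map_sum, ← mul_assoc, ← map_mul, c1pow_succ]

theorem ka_succ (K m i : ℕ) {a b : Ix X} (h : c1 X b a ≠ 0) :
    ka X K (m + 1) i a = - ka X K m i b := by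
  unfold ka
  rw [c1_mu X h]
  have : mu X b + 1 - ((m + 1 : ℕ) : ℂ) - 1 / 2 = mu X b - m - 1 / 2 := by
    push_cast; ring
  rw [this, pow_succ]
  ring

theorem sum_L2 (K m i n : ℕ) : Sm K (m + 1) i i (L2 F n (m + 1)) =
    - Sm K m i (i + 1) (fun b c => WW F (c, n) (b, m)) := by
  have h0 : ∀ b c, L2 F n (m + 1) b c = ∑ d, cs X (c1 X b d) * WW F (c, n) (d, m) := by
    intro b c
    unfold L2
    rw [if_neg (Nat.succ_ne_zero m), Nat.add_sub_cancel]
    exact Finset.sum_congr rfl fun d _ => smul_cs _ _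
  unfold Sm
  simp only [h0]
  calc ∑ a, ∑ b, ∑ c, cs X (ka X K (m + 1) i a * pairingInv X a b * c1pow X i a c) *
        ∑ d, cs X (c1 X b d) * WW F (c, n) (d, m)
      = ∑ a, ∑ d, ∑ c, cs X (ka X K (m + 1) i a * c1pow X i a c *
          ∑ b, pairingInv X a b * c1 X b d) * WW F (c, n) (d, m) := by
        refine Finset.sum_congr rfl fun a _ => ?_
        simp only [Finset.mul_sum, map_sum, Finset.sum_mul]
        rw [Finset.sum_comm]
        conv_lhs => enter [2, c]; rw [Finset.sum_comm]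
        rw [Finset.sum_comm]
        refine Finset.sum_congr rfl fun d _ => Finset.sum_congr rfl fun c _ =>
          Finset.sum_congr rfl fun b _ => ?_
        simp only [map_mul]
        ring
    _ = ∑ a, ∑ d, ∑ c, ∑ b, cs X (ka X K (m + 1) i a * c1pow X i a c *
          (pairingInv X b d * c1 X b a)) * WW F (c, n) (d, m) := by
        refine Finset.sum_congr rfl fun a _ => Finset.sum_congr rfl fun d _ =>
          Finset.sum_congr rfl fun c _ => ?_
        rw [pInv_c1, Finset.mul_sum, map_sum, Finset.sum_mul]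
    _ = ∑ b, ∑ d, ∑ c, ∑ a, - (cs X (ka X K m i b * pairingInv X b d *
          (c1 X b a * c1pow X i a c)) * WW F (c, n) (d, m)) := by
        conv_lhs => enter [2, a, 2, d]; rw [Finset.sum_comm]
        conv_lhs => enter [2, a]; rw [Finset.sum_comm]
        rw [Finset.sum_comm]
        refine Finset.sum_congr rfl fun b _ => ?_
        rw [Finset.sum_comm]
        refine Finset.sum_congr rfl fun d _ => ?_
        rw [Finset.sum_comm]
        refine Finset.sum_congr rfl fun c _ => Finset.sum_congr rfl fun a _ => ?_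
        by_cases h : c1 X b a = 0
        · rw [h]; simp
        · rw [ka_succ K m i h, ← neg_mul, ← map_neg]
          congr 2
          ring
    _ = - ∑ a, ∑ b, ∑ c, cs X (ka X K m i a * pairingInv X a b * c1pow X (i + 1) a c) *
          WW F (c, n) (b, m) := by
        rw [← Finset.sum_neg_distrib]
        refine Finset.sum_congr rfl fun a _ => ?_
        rw [← Finset.sum_neg_distrib]
        refine Finset.sum_congr rfl fun b _ => ?_
        rw [← Finset.sum_neg_distrib]
        refine Finset.sum_congr rfl fun c _ => ?_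
        rw [Finset.sum_neg_distrib, c1pow_succ', Finset.mul_sum, map_sum, Finset.sum_mul]

/-- the lowering sums cancel -/
theorem cancel (F : ℕ → ℕ → List (Ins X) → ℂ) (K q : ℕ) :
    ∑ m ∈ Finset.range q, ∑ i ∈ Finset.range (q - m),
      (Sm K m i i (L1 F (q - 1 - m - i) m) + Sm K m i i (L2 F (q - 1 - m - i) m)) = 0 := by
  rcases q with _ | q
  · simp
  simp only [Finset.sum_add_distrib]
  have e1 : ∑ m ∈ Finset.range (q + 1), ∑ i ∈ Finset.range (q + 1 - m),
      Sm K m i i (L1 F (q + 1 - 1 - m - i) m) =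
      ∑ m ∈ Finset.range q, ∑ i ∈ Finset.range (q - m),
        Sm K m i (i + 1) (fun b c => WW F (c, q - 1 - m - i) (b, m)) := by
    have z : ∀ m i, q - m - i = 0 → Sm K m i i (L1 F (q + 1 - 1 - m - i) m) = 0 := by
      intro m i h
      have : q + 1 - 1 - m - i = 0 := by omega
      rw [this]
      unfold Sm L1
      simp
    rw [Finset.sum_range_succ]
    have e : ∑ i ∈ Finset.range (q + 1 - q), Sm K q i i (L1 F (q + 1 - 1 - q - i) q) = 0 :=
      Finset.sum_eq_zero fun i _ => z q i (by omega)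
    rw [e, add_zero]
    refine Finset.sum_congr rfl fun m hm => ?_
    have hm' := Finset.mem_range.1 hm
    rw [show q + 1 - m = (q - m) + 1 from by omega, Finset.sum_range_succ,
      z m (q - m) (by omega), add_zero]
    refine Finset.sum_congr rfl fun i hi => ?_
    have hi' := Finset.mem_range.1 hi
    rw [sum_L1 K m i _ (by omega), show q + 1 - 1 - m - i - 1 = q - 1 - m - i from by omega]
  have e2 : ∑ m ∈ Finset.range (q + 1), ∑ i ∈ Finset.range (q + 1 - m),
      Sm K m i i (L2 F (q + 1 - 1 - m - i) m) =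
      - ∑ m ∈ Finset.range q, ∑ i ∈ Finset.range (q - m),
        Sm K m i (i + 1) (fun b c => WW F (c, q - 1 - m - i) (b, m)) := by
    rw [Finset.sum_range_succ']
    have e : ∑ i ∈ Finset.range (q + 1 - 0), Sm K 0 i i (L2 F (q + 1 - 1 - 0 - i) 0) = 0 := by
      refine Finset.sum_eq_zero fun i _ => ?_
      unfold Sm L2
      simp
    rw [e, add_zero, ← Finset.sum_neg_distrib]
    refine Finset.sum_congr rfl fun m _ => ?_
    rw [← Finset.sum_neg_distrib, show q + 1 - (m + 1) = q - m from by omega]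
    refine Finset.sum_congr rfl fun i _ => ?_
    rw [sum_L2, show q + 1 - 1 - (m + 1) - i = q - 1 - m - i from by omega]
  rw [e1, e2, add_neg_cancel]

theorem loopB_eq (F : ℕ → ℕ → List (Ins X) → ℂ) (q : ℕ) : loopB (E0 X) F q =
    ∑ m ∈ Finset.range q, ∑ i ∈ Finset.range (q - m),
      Sm (q + 1) m i i (fun b c => WW F (c, q - 1 - m - i) (b, m)) := by
  unfold loopB
  have h : (fun (d : ℕ) (L : List (Ins X)) => (coh X).loop (F 0 d) q L) = fun d L =>
      ∑ m ∈ Finset.range q, ∑ i ∈ Finset.range (q - m), ∑ a, ∑ b, ∑ c,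
        (ka X (q + 1) m i a * pairingInv X a b * c1pow X i a c) *
          cor F 0 [(c, q - 1 - m - i), (b, m)] d L := by
    funext d L
    rw [H597.loop_eq]
    rfl
  rw [h, H598.sM_sum]
  refine Finset.sum_congr rfl fun m _ => ?_
  rw [H598.sM_sum]
  refine Finset.sum_congr rfl fun i _ => ?_
  rw [H598.sM_sum]
  unfold Sm
  refine Finset.sum_congr rfl fun a _ => ?_
  rw [H598.sM_sum]
  refine Finset.sum_congr rfl fun b _ => ?_
  rw [H598.sM_sum]
  refine Finset.sum_congr rfl fun c _ => ?_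
  rw [H598.sM_smul, smul_cs]
  rfl

/-- one term of the trace -/
theorem E_eq (q m i n : ℕ) :
    Sm (q + 1) m i i (fun b c => ∑ x, EM hF he x * sr (E0 X) (cor F 0 [(x, 0), (c, n), (b, m)])) =
      (-1) ^ (m + 1) * strB X (nx X) (UU hF he * (SB (E0 X) F n * RBcl X (nx X) ^ i *
        ee X (nx X) (-1 - (m : ℤ)) (q + 1) i * STB F m)) := by
  unfold ee
  rw [str_part]
  unfold Sm
  rw [Finset.mul_sum]
  refine Finset.sum_congr rfl fun a _ => ?_
  rw [Finset.mul_sum]
  refine Finset.sum_congr rfl fun b _ => ?_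
  rw [Finset.mul_sum]
  refine Finset.sum_congr rfl fun c _ => ?_
  rw [← mul_assoc]
  congr 1
  have e : ((-1) ^ (m + 1) : RM X) = cs X ((-1) ^ (m + 1)) := by
    rw [map_pow, map_neg, map_one]
  rw [e, ← map_mul]
  congr 1
  unfold ka
  have e2 : mu X a - (m : ℂ) - 1 / 2 = mu X a + (((-1 - (m : ℤ) : ℤ)) : ℂ) + 1 / 2 := by
    push_cast; ring
  rw [e2]
  ring

theorem SZ_neg (F : ℕ → ℕ → List (Ins X) → ℂ) (n : ℤ) (h : n < 0) : SZ F n = 0 := by
  unfold SZ; rw [if_pos h]

theorem SZ_nat (F : ℕ → ℕ → List (Ins X) → ℂ) (n : ℕ) : SZ F (n : ℤ) = SB (E0 X) F n := by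
  unfold SZ
  rw [if_neg (by omega), Int.toNat_natCast]

theorem aK_eq (F : ℕ → ℕ → List (Ins X) → ℂ) (q m : ℕ) (hm : m < q) :
    aK (SZ F) (RBcl X (nx X)) (ee X (nx X)) (-1 - (m : ℤ)) (q + 1) 1 =
      ∑ i ∈ Finset.range (q - m), SB (E0 X) F (q - 1 - m - i) * RBcl X (nx X) ^ i *
        ee X (nx X) (-1 - (m : ℤ)) (q + 1) i := by
  unfold aK
  symm
  have hs : Finset.range (q - m) ⊆ Finset.range (q + 1 + 1) := by
    intro x hx
    rw [Finset.mem_range] at hx ⊢
    omega
  rw [← Finset.sum_subset hs]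
  · refine Finset.sum_congr rfl fun i hi => ?_
    have hi' := Finset.mem_range.1 hi
    have : (-1 - (m : ℤ)) + ((q + 1 : ℕ) : ℤ) - (i : ℤ) - 1 = ((q - 1 - m - i : ℕ) : ℤ) := by
      omega
    rw [this, SZ_nat]
  · intro i _ hi
    have hi' : ¬ i < q - m := fun h => hi (Finset.mem_range.2 h)
    rw [SZ_neg F _ (by push_cast; omega), zero_mul, zero_mul]

theorem str_neg_pow (n : ℕ) (U Y : OB X (nx X)) :
    strB X (nx X) (U * ((-1) ^ n * Y)) = (-1) ^ n * strB X (nx X) (U * Y) := by
  rcases Nat.even_or_odd n with hn | hn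
  · rw [hn.neg_one_pow, hn.neg_one_pow, one_mul, one_mul]
  · rw [hn.neg_one_pow, hn.neg_one_pow, neg_one_mul, neg_one_mul, mul_neg, map_neg]

include hF he in
/-- the abstract recursion for the operators of `X` -/
theorem conj_X (c p : ℤ) (K N : ℕ) (hN : c - p + K < N) :
    ∑ n ∈ Finset.range N, (-1) ^ n * (aK (SZ F) (RBcl X (nx X)) (ee X (nx X)) (c - n) K p *
      STB F n) = DD (RM X) (UU hF he) (muB X (nx X)) c K p :=
  G1.conj (RM X) _ _ _ _ _ _ (SZ_euler hF he) (mu_Rcl X (nx X))
    (fun n hn => SZ_neg F n hn) (SZ_STB hF he) (ee_zero_zero X (nx X))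
    (ee_zero_succ X (nx X)) (ee_succ_zero X (nx X)) (ee_succ_succ X (nx X)) c p K N hN

/-- **[ZF]** -/
theorem loop_eq (q : ℕ) : ((q : ℕ) : RM X) * loopB (E0 X) F q =
    - strB X (nx X) (QA.mat _ (EM hF he) *
      DD (RM X) (QA.mat _ (EM hF he)) (muB X (nx X)) (-1) (q + 1) 1) := by
  change _ = - strB X (nx X) (UU hF he * DD (RM X) (UU hF he) (muB X (nx X)) (-1) (q + 1) 1)
  have hc := conj_X hF he (-1) 1 (q + 1) q (by push_cast; omega)
  rw [← hc]
  have hs : strB X (nx X) (UU hF he * ∑ n ∈ Finset.range q, (-1) ^ n *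
      (aK (SZ F) (RBcl X (nx X)) (ee X (nx X)) (-1 - n) (q + 1) 1 * STB F n)) =
      ∑ n ∈ Finset.range q, strB X (nx X) (UU hF he * ((-1) ^ n *
      (aK (SZ F) (RBcl X (nx X)) (ee X (nx X)) (-1 - n) (q + 1) 1 * STB F n))) := by
    rw [Finset.mul_sum, map_sum]
  rw [hs, loopB_eq]
  have h := cancel F (q + 1) q
  have e2 : ((q : ℕ) : RM X) * ∑ m ∈ Finset.range q,
      ∑ i ∈ Finset.range (q - m), Sm (q + 1) m i i (fun b c => WW F (c, q - 1 - m - i) (b, m)) =
      ∑ m ∈ Finset.range q, ∑ i ∈ Finset.range (q - m),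
      Sm (q + 1) m i i (fun b c => ∑ x, EM hF he x *
        sr (E0 X) (cor F 0 [(x, 0), (c, q - 1 - m - i), (b, m)])) := by
    rw [← sub_eq_zero, ← neg_eq_zero, ← h]
    simp only [Finset.mul_sum]
    rw [neg_sub, ← Finset.sum_sub_distrib]
    refine Finset.sum_congr rfl fun m hm => ?_
    have hm' := Finset.mem_range.1 hm
    rw [← Finset.sum_sub_distrib]
    refine Finset.sum_congr rfl fun i hi => ?_
    have hi' := Finset.mem_range.1 hi
    rw [euler_sum hF he (q + 1) m i (q - 1 - m - i) q (by omega)]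
    ring
  rw [e2, ← Finset.sum_neg_distrib]
  refine Finset.sum_congr rfl fun m hm => ?_
  have hm' := Finset.mem_range.1 hm
  rw [str_neg_pow, aK_eq F q m hm', Finset.sum_mul, Finset.mul_sum, map_sum, Finset.mul_sum,
    ← Finset.sum_neg_distrib]
  refine Finset.sum_congr rfl fun i _ => ?_
  rw [E_eq hF he q m i, pow_succ]
  ring

end Vale.Agent.P269.G2.H780.Lp
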