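import Vale.Agent.P269.G1I.All
import Vale.Agent.P269.G2I.BSpec1
import Vale.Agent.P269.G2I.T.H980_GString
import Vale.Agent.P269.G2I.T.H984_SBEuler

/-!
# [DC2] the polynomial parts `𝒜_0`, `𝒜_1` of `l_k τ`
-/

namespace Vale.Agent.P269.G2.H780.H856

open Finset.HasAntidiagonal (antidiagonal)
open Vale.Agent.P269.CI
open Vale.Agent.P269.H597 (coh)

variable {X : CompleteIntersection} {n : ℕ} (E : Fam X n) {F : ℕ → ℕ → List (Ins X) → ℂ}

theorem cb_add (c d : ℂ) : cb n (c + d) = cb n c + cb n d := by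
  simp only [cb, map_add]

theorem cb_one : cb n 1 = 1 := by
  simp only [cb, map_one]

/-- `c + μ` is `c • 1 + μ` -/
theorem muc_eq (c : ℂ) : muc X n c = (cb n c : RB n) • (1 : OB X n) + muB X n := by
  refine Matrix.ext fun a b => ?_
  change Matrix.diagonal (fun b => cb n (c + mu X b)) a b =
    cb n c * (1 : Matrix _ _ (RB n)) a b + Matrix.diagonal (fun b => cb n (mu X b)) a b
  by_cases h : a = b
  · subst h
    rw [Matrix.diagonal_apply_eq, Matrix.diagonal_apply_eq, Matrix.one_apply_eq, mul_one, cb_add]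
  · rw [Matrix.diagonal_apply_ne _ h, Matrix.diagonal_apply_ne _ h, Matrix.one_apply_ne h,
      mul_zero, add_zero]

/-- rational multiples are multiples by constants -/
theorem rat_smul (q : ℚ) (a : OB X n) : q • a = (cb n (q : ℂ) : RB n) • a := by
  have h : ((MvPowerSeries.C (σ := Fin n)).comp (PowerSeries.C (R := ℂ))).comp
      (algebraMap ℚ ℂ) = algebraMap ℚ (RB n) := Subsingleton.elim _ _
  have h2 : cb n ((q : ℚ) : ℂ) = algebraMap ℚ (RB n) q := RingHom.congr_fun h q
  rw [h2, algebraMap_smul]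

theorem SB_zero : SB E F 0 = 1 := rfl

/-- `SB_euler` with `U` instead of `C(ℰ)` -/
theorem U_mul_SB (hF : IsGW X F) (he : Even X.dim) (k : ℕ) :
    UB E F * SB E F k =
    ((k : ℚ) + 1) • SB E F (k + 1) + SB E F (k + 1) * muB X n - muB X n * SB E F (k + 1) +
      SB E F k * RBcl X n := by
  have h0 := SB_euler E hF he 0
  rw [SB_zero, mul_one, one_mul, Nat.cast_zero, zero_add, one_smul] at h0
  have h2 : CB E F (calE E F) = UB E F := by
    rw [h0, UB]
  rw [← h2]
  exact SB_euler E hF he k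

/-- `S_(p+1) (p + 1 + c + μ) = (c + μ) S_(p+1) + U S_p - S_p R` -/
theorem SB_muc (hF : IsGW X F) (he : Even X.dim) (p : ℕ) (c : ℂ) :
    SB E F (p + 1) * muc X n (((p + 1 : ℕ) : ℂ) + c) =
      muc X n c * SB E F (p + 1) + UB E F * SB E F p - SB E F p * RBcl X n := by
  rw [U_mul_SB E hF he p, muc_eq, muc_eq, rat_smul, mul_add, add_mul, cb_add, add_smul,
    mul_add, mul_smul_comm, mul_one, mul_smul_comm, mul_one, smul_mul_assoc, one_mul]
  push_cast
  abel

/-- `A_j(c) = ∑ S_p c_(p+j)` -/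
noncomputable def AA (F : ℕ → ℕ → List (Ins X) → ℂ) (N j : ℕ) (c : ℕ → Ix X → RB n) :
    Ix X → RB n :=
  ∑ p ∈ Finset.range N, actB X n (SB E F p) (c (p + j))

theorem act_mul (a b : OB X n) (x : Ix X → RB n) :
    actB X n (a * b) x = actB X n a (actB X n b x) := by
  rw [map_mul]
  rfl

theorem act_add (a b : OB X n) (x : Ix X → RB n) :
    actB X n (a + b) x = actB X n a x + actB X n b x := by
  rw [map_add]
  rfl

theorem act_sub (a b : OB X n) (x : Ix X → RB n) :
    actB X n (a - b) x = actB X n a x - actB X n b x := by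
  rw [map_sub]
  rfl

theorem act_one (x : Ix X → RB n) : actB X n 1 x = x := by
  rw [map_one]
  rfl

theorem act_apply (a : OB X n) (x : Ix X → RB n) (c : Ix X) :
    actB X n a x c = ∑ b, a  c b * x b := by
  rfl

/-- `A_0(z c - ..) = 0` -/
theorem AA_cZ_zero (N : ℕ) (c : ℕ → Ix X → RB n) (hN : 0 < N)
    (hc : c (N - 1) = 0) : AA E F N 0 (cZB E F N c) = 0 := by
  obtain ⟨M, rfl⟩ : ∃ M, N = M + 1 := ⟨N - 1, by omega⟩
  rw [Nat.add_sub_cancel] at hc
  rw [AA, Finset.sum_range_succ', SB_zero, act_one]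
  simp only [add_zero]
  change _ + - _ = _
  rw [Finset.sum_range_succ, hc, map_zero, add_zero]
  exact add_neg_cancel _

/-- `A_(j+1)(z c - ..) = A_j(c)` -/
theorem AA_cZ_succ (N M j : ℕ) (c : ℕ → Ix X → RB n) :
    AA E F N (j + 1) (cZB E F M c) = AA E F N j c := rfl

/-- `A_j(l_0 c) = (j + 1/2 + μ) A_j(c) + U A_(j+1)(c)` -/
theorem AA_cL (hF : IsGW X F) (he : Even X.dim) (N j : ℕ) (c : ℕ → Ix X → RB n)
    (hN : 0 < N) (hc : c (N + j) = 0) :
    AA E F N j (cLB c) = actB X n (muc X n ((j : ℂ) + 1 / 2)) (AA E F N j c) +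
      actB X n (UB E F) (AA E F N (j + 1) c) := by
  obtain ⟨M, rfl⟩ : ∃ M, N = M + 1 := ⟨N - 1, by omega⟩
  have hstep : ∀ p, actB X n (SB E F (p + 1)) (cLB c (p + 1 + j)) =
      actB X n (muc X n ((j : ℂ) + 1 / 2)) (actB X n (SB E F (p + 1)) (c (p + 1 + j))) +
      actB X n (UB E F) (actB X n (SB E F p) (c (p + (j + 1)))) +
      (actB X n (SB E F (p + 1)) (actB X n (RBcl X n) (c (p + 1 + (j + 1)))) -
      actB X n (SB E F p) (actB X n (RBcl X n) (c (p + (j + 1))))) := by
    intro p
    have e1 : ((p + 1 + j : ℕ) : ℂ) + 1 / 2 = ((p + 1 : ℕ) : ℂ) + ((j : ℂ) + 1 / 2) := by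
      push_cast; ring
    have e2 := SB_muc E hF he p ((j : ℂ) + 1 / 2)
    have e3 := congrArg (fun a => actB X n a (c (p + 1 + j))) e2
    simp only [act_mul, act_add, act_sub] at e3
    rw [cLB, e1, map_add, e3, show p + (j + 1) = p + 1 + j by ring,
      show p + 1 + j + 1 = p + 1 + (j + 1) by ring]
    abel
  have hzero : actB X n (SB E F 0) (cLB c (0 + j)) =
      actB X n (muc X n ((j : ℂ) + 1 / 2)) (actB X n (SB E F 0) (c (0 + j))) +
      actB X n (SB E F 0) (actB X n (RBcl X n) (c (0 + (j + 1)))) := by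
    rw [SB_zero, act_one, act_one, act_one, cLB, Nat.zero_add, Nat.zero_add]
  rw [AA, AA, AA, Finset.sum_range_succ', hzero, Finset.sum_congr rfl fun p _ => hstep p,
    Finset.sum_add_distrib, Finset.sum_add_distrib, Finset.sum_range_succ', ← map_sum, ← map_sum,
    Finset.sum_range_sub (fun p => actB X n (SB E F p) (actB X n (RBcl X n) (c (p + (j + 1)))))]
  rw [Finset.sum_range_succ (fun p => actB X n (SB E F p) (c (p + (j + 1)))),
    show M + (j + 1) = M + 1 + j by ring, hc, map_zero, map_zero, add_zero, map_add]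
  abel

/-- `A_j(τ) = - g_j` -/
theorem AA_tau (N j : ℕ) (hN : ∀ i, (E.e i).2 < N) (hN2 : 2 ≤ N) :
    AA E F N j (tauB E) = - gB E F j := by
  funext c
  rw [AA, Finset.sum_apply]
  simp only [act_apply, tauB, gB, Pi.neg_apply]
  rw [neg_sub]
  have hs : ∀ p, ∑ b, (SB E F p)  c b * ((∑ i, if E.e i = (b, p + j) then
      (MvPowerSeries.X i : RB n) else 0) - if p + j = 1 ∧ b = one X then 1 else 0) =
      (∑ i, if (E.e i).2 = p + j then MvPowerSeries.X i * (SB E F p) c (E.e i).1 else 0) -
        if p + j = 1 then (SB E F p) c (one X) else 0 := by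
    intro p
    simp only [mul_sub, Finset.sum_sub_distrib, Finset.mul_sum]
    congr 1
    · rw [Finset.sum_comm]
      refine Finset.sum_congr rfl fun i _ => ?_
      by_cases h : (E.e i).2 = p + j
      · rw [if_pos h, Finset.sum_eq_single (E.e i).1]
        · rw [if_pos (show E.e i = ((E.e i).1, p + j) from Prod.ext rfl h), mul_comm]
        · intro b _ hb
          rw [if_neg, mul_zero]
          intro h'
          exact hb (by rw [h'])
        · intro h'
          exact absurd (Finset.mem_univ _) h'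
      · rw [if_neg h]
        refine Finset.sum_eq_zero fun b _ => ?_
        rw [if_neg, mul_zero]
        intro h'
        exact h (by rw [h'])
    · by_cases h : p + j = 1
      · rw [if_pos h, Finset.sum_eq_single (one X)]
        · rw [if_pos ⟨h, rfl⟩, mul_one]
        · intro b _ hb
          rw [if_neg (fun h' => hb h'.2), mul_zero]
        · intro h'
          exact absurd (Finset.mem_univ _) h'
      · rw [if_neg h]
        refine Finset.sum_eq_zero fun b _ => ?_
        rw [if_neg (fun h' => h h'.1), mul_zero]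
  rw [Finset.sum_congr rfl fun p _ => hs p, Finset.sum_sub_distrib, Finset.sum_comm]
  congr 1
  · refine Finset.sum_congr rfl fun i _ => ?_
    rw [wB]
    by_cases h : j ≤ (E.e i).2
    · rw [if_pos h, Finset.sum_eq_single ((E.e i).2 - j)]
      · rw [if_pos (by omega)]
      · intro b _ hb
        rw [if_neg (by omega)]
      · intro h'
        rw [Finset.mem_range] at h'
        have := hN i
        omega
    · rw [if_neg h, mul_zero]
      refine Finset.sum_eq_zero fun p _ => ?_
      rw [if_neg (by omega)]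
  · by_cases h : j ≤ 1
    · rw [if_pos h, Finset.sum_eq_single (1 - j)]
      · rw [if_pos (by omega)]
      · intro b _ hb
        rw [if_neg (by omega)]
      · intro h'
        rw [Finset.mem_range] at h'
        omega
    · rw [if_neg h]
      refine Finset.sum_eq_zero fun p _ => ?_
      rw [if_neg (by omega)]

theorem tauB_high (M p : ℕ) (hM : ∀ i, (E.e i).2 < M) (hM2 : 2 ≤ M) (hp : M ≤ p) :
    tauB E p = 0 := by
  funext b
  rw [tauB, if_neg (by omega), sub_zero]
  refine Finset.sum_eq_zero fun i _ => ?_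
  rw [if_neg]
  intro h
  have := hM i
  rw [h] at this
  dsimp only at this
  omega

theorem cB_high' (N M : ℕ) (hM : ∀ i, (E.e i).2 < M) (hM2 : 2 ≤ M) :
    ∀ k p, M + k ≤ p → cB E F N k p = 0
  | 0, p, hp => by
    rw [cB, cLB, tauB_high E M p hM hM2 (by omega), tauB_high E M (p + 1) hM hM2 (by omega),
      map_zero, map_zero, add_zero]
  | k + 1, p, hp => by
    obtain ⟨q, rfl⟩ : ∃ q, p = q + 1 := ⟨p - 1, by omega⟩
    rw [cB, cLB]
    change actB X n _ (cB E F N k q) + actB X n _ (cB E F N k (q + 1)) = 0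
    rw [cB_high' N M hM hM2 k q (by omega), cB_high' N M hM hM2 k (q + 1) (by omega),
      map_zero, map_zero, add_zero]

/-- **[DC2]** -/
theorem cB_high (k N p : ℕ)
    (hN : ∀ i, (E.e i).2 + k + 2 ≤ N) (hN2 : k + 3 ≤ N) (hp : N ≤ p + 1) :
    cB E F N k p = 0 :=
  cB_high' E N (N - k - 1) (fun i => by have := hN i; omega) (by omega) k p (by omega)

/-- all steps at once: `k' ≤ k` -/
theorem AA_cB (hF : IsGW X F) (he : Even X.dim) (k N : ℕ)
    (hN : ∀ i, (E.e i).2 + k + 2 ≤ N) (hN2 : k + 3 ≤ N) : ∀ k' ≤ k,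
    AA E F N 0 (cB E F N k') = - actB X n (UB E F ^ (k' + 1)) (gB E F 1) ∧
    AA E F N 1 (cB E F N k') = - ((∑ e ∈ antidiagonal (k' + 1), if e.1 = 0 then 0 else
        actB X n (UB E F ^ (e.1 - 1) * muc X n (3 / 2) * UB E F ^ e.2) (gB E F 1)) +
        actB X n (UB E F ^ (k' + 1)) (gB E F 2))
  | 0, _ => by
    have hM : ∀ i, (E.e i).2 < N := fun i => by have := hN i; omega
    have ht : ∀ j, tauB E (N + j) = 0 := fun j =>
      tauB_high E N (N + j) hM (by omega) (by omega)
    constructor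
    · rw [cB, AA_cL E hF he N 0 _ (by omega) (ht 0), AA_tau E N _ hM (by omega),
        AA_tau E N _ hM (by omega), g_zero E hF he, neg_zero, map_zero, zero_add, zero_add,
        pow_one, map_neg]
    · rw [cB, AA_cL E hF he N 1 _ (by omega) (ht 1), AA_tau E N _ hM (by omega),
        AA_tau E N _ hM (by omega), zero_add, pow_one, map_neg, map_neg,
        Finset.Nat.antidiagonal_succ, Finset.sum_cons, if_pos rfl, zero_add, Finset.sum_map,
        Finset.Nat.antidiagonal_zero, Finset.sum_singleton]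
      change _ = - ((if (1 : ℕ) = 0 then 0 else actB X n (UB E F ^ 0 * muc X n (3 / 2) *
        UB E F ^ 0) (gB E F 1)) + _)
      rw [if_neg one_ne_zero, pow_zero, one_mul, mul_one, Nat.cast_one,
        show (1 : ℂ) + 1 / 2 = 3 / 2 by norm_num, neg_add]
  | k' + 1, hk => by
    have hM : ∀ i, (E.e i).2 < N - k - 1 := fun i => by have := hN i; omega
    obtain ⟨ih0, ih1⟩ := AA_cB hF he k N hN hN2 k' (by omega)
    have hz : ∀ j, cZB E F N (cB E F N k') (N + j) = 0 := by
      intro j
      obtain ⟨q, hq⟩ : ∃ q, N + j = q + 1 := ⟨N + j - 1, by omega⟩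
      rw [hq]
      exact cB_high' E N (N - k - 1) hM (by omega) k' q (by omega)
    have hl : cB E F N k' (N - 1) = 0 :=
      cB_high' E N (N - k - 1) hM (by omega) k' (N - 1) (by omega)
    constructor
    · rw [cB, AA_cL E hF he N 0 _ (by omega) (hz 0), AA_cZ_zero E N _ (by omega) hl,
        AA_cZ_succ, ih0, map_zero, zero_add, map_neg, ← act_mul, ← pow_succ']
    · rw [cB, AA_cL E hF he N 1 _ (by omega) (hz 1), AA_cZ_succ E N N 0, AA_cZ_succ, ih0, ih1,
        Finset.Nat.antidiagonal_succ (n := k' + 1), Finset.sum_cons, if_pos rfl, zero_add, Finset.sum_map]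
      have hs : ∀ e : ℕ × ℕ, (if ((Function.Embedding.prodMap ⟨Nat.succ, Nat.succ_injective⟩
          (Function.Embedding.refl ℕ)) e).1 = 0 then (0 : Ix X → RB n) else
          actB X n (UB E F ^ (((Function.Embedding.prodMap ⟨Nat.succ, Nat.succ_injective⟩
          (Function.Embedding.refl ℕ)) e).1 - 1) * muc X n (3 / 2) * UB E F ^
          ((Function.Embedding.prodMap ⟨Nat.succ, Nat.succ_injective⟩
          (Function.Embedding.refl ℕ)) e).2) (gB E F 1)) =
          (if e.1 = 0 then actB X n (muc X n (3 / 2) * UB E F ^ e.2) (gB E F 1) else 0) +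
          actB X n (UB E F) (if e.1 = 0 then 0 else
          actB X n (UB E F ^ (e.1 - 1) * muc X n (3 / 2) * UB E F ^ e.2) (gB E F 1)) := by
        intro e
        change (if e.1 + 1 = 0 then (0 : Ix X → RB n) else
          actB X n (UB E F ^ (e.1 + 1 - 1) * muc X n (3 / 2) * UB E F ^ e.2) (gB E F 1)) = _
        rw [if_neg (Nat.succ_ne_zero _), Nat.add_sub_cancel]
        by_cases h : e.1 = 0
        · rw [if_pos h, if_pos h, map_zero, add_zero, h, pow_zero, one_mul]
        · obtain ⟨m, hm⟩ : ∃ m, e.1 = m + 1 := ⟨e.1 - 1, by omega⟩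
          rw [if_neg h, if_neg h, zero_add, ← act_mul, hm, Nat.add_sub_cancel, pow_succ',
            ← mul_assoc, ← mul_assoc]
      rw [Finset.sum_congr rfl fun e _ => hs e, Finset.sum_add_distrib, ← map_sum]
      have hf : (∑ e ∈ antidiagonal (k' + 1), if e.1 = 0 then
          actB X n (muc X n (3 / 2) * UB E F ^ e.2) (gB E F 1) else 0) =
          actB X n (muc X n (3 / 2) * UB E F ^ (k' + 1)) (gB E F 1) := by
        rw [Finset.sum_eq_single (0, k' + 1)]
        · rw [if_pos rfl]
        · intro e hee hne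
          rw [if_neg]
          intro h
          apply hne
          rw [Finset.HasAntidiagonal.mem_antidiagonal] at hee
          exact Prod.ext h (by omega)
        · intro h
          exact absurd (by rw [Finset.HasAntidiagonal.mem_antidiagonal]; ring) h
      rw [hf, act_mul (muc X n (3 / 2)), pow_succ' (UB E F) (k' + 1),
        act_mul (UB E F) _ (gB E F 2), Nat.cast_one, show (1 : ℂ) + 1 / 2 = 3 / 2 by norm_num,
        map_neg, map_neg, map_add]
      abel

/-- **[DC2]** `𝒜_0` -/
theorem cB_zero (hF : IsGW X F) (he : Even X.dim) (k N : ℕ)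
    (hN : ∀ i, (E.e i).2 + k + 2 ≤ N) (hN2 : k + 3 ≤ N) :
    ∑ p ∈ Finset.range N, actB X n (SB E F p) (cB E F N k p) =
      - actB X n (UB E F ^ (k + 1)) (gB E F 1) :=
  (AA_cB E hF he k N hN hN2 k le_rfl).1

/-- **[DC2]** `𝒜_1` -/
theorem cB_one (hF : IsGW X F) (he : Even X.dim) (k N : ℕ)
    (hN : ∀ i, (E.e i).2 + k + 2 ≤ N) (hN2 : k + 3 ≤ N) :
    ∑ p ∈ Finset.range N, actB X n (SB E F p) (cB E F N k (p + 1)) =
      - ((∑ e ∈ antidiagonal (k + 1), if e.1 = 0 then 0 else
        actB X n (UB E F ^ (e.1 - 1) * muc X n (3 / 2) * UB E F ^ e.2) (gB E F 1)) +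
        actB X n (UB E F ^ (k + 1)) (gB E F 2)) :=
  (AA_cB E hF he k N hN hN2 k le_rfl).2

end Vale.Agent.P269.G2.H780.H856
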